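import Vale.Agent.P284.H913.K3
import Vale.Agent.P284.H730.CY.Spec
import Vale.Agent.P284.H10.CY.MaxE
import Vale.Agent.P272.K.C2.Main

/-!
# P284, theorem CY (helper639), row M2: the `C²` estimate on the covering

Port of `P272/K/C2/{Global,Main}` to families of functions on the pieces of a covering of infinite
degree.
-/

open scoped Manifold ContDiff Topology ComplexConjugate ComplexOrder Matrix
open Filter Set Metric MeasureTheory

noncomputable section

namespace Vale.Agent.P284.H639.CY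

open Vale.Agent.P272.K Vale.Agent.P272.K.C2 Vale.Agent.P284.H894 Vale.Agent.P284.H894.V

section loc
variable {n : ℕ} {U : Set (Cm n)} {w : Cm n → Matrix (Fin n) (Fin n) ℂ} {F u : Cm n → ℝ}

/-- the error term in the Ricci curvature -/
def ThL (w : Cm n → Matrix (Fin n) (Fin n) ℂ) (F : Cm n → ℝ) (s : ℝ) (z : Cm n) :
    Matrix (Fin n) (Fin n) ℂ :=
  cHess (fun y => Real.log (w y).det.re) z - w z + (s : ℂ) • cHess F z

/-- bounds for the data at a point -/
structure BdL (w : Cm n → Matrix (Fin n) (Fin n) ℂ) (F : Cm n → ℝ) (M : ℝ) (z : Cm n) : Prop where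
  rm : ∀ k l i j, ‖RM k l w z i j‖ ≤ M
  th : ∀ s : ℝ, 0 ≤ s → s ≤ 1 → ∀ i j, ‖ThL w F s z i j‖ ≤ M
  met : ∀ i j, ‖w z i j‖ ≤ M
  inv : ((w z)⁻¹).trace.re ≤ M

/-- the metric `w + ∂∂̄u` -/
def Gm (w : Cm n → Matrix (Fin n) (Fin n) ℂ) (u : Cm n → ℝ) (y : Cm n) :
    Matrix (Fin n) (Fin n) ℂ := w y + cHess u y

theorem mc_w (hw : KU U w) {z : Cm n} (hz : z ∈ U) (m : ℕ) : MC m w z :=
  fun i j => (hw.smooth z hz i j).of_le (nat_le_infty m)

theorem mc_H (hu : ∀ z ∈ U, ContDiffAt ℝ ∞ u z) {z : Cm n} (hz : z ∈ U) (m : ℕ) :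
    MC m (cHess u) z := by
  intro i j
  have : ContDiffAt ℝ ((m + 2 : ℕ) : WithTop ℕ∞) u z := (hu z hz).of_le (nat_le_infty (m + 2))
  exact C2.contDiffAt_cHess this (by norm_cast) i j

theorem mc_G (hw : KU U w) (hu : ∀ z ∈ U, ContDiffAt ℝ ∞ u z) {z : Cm n} (hz : z ∈ U) (m : ℕ) :
    MC m (Gm w u) z := (mc_w hw hz m).add (mc_H hu hz m)

theorem mc_log_detL (hw : KU U w) {z : Cm n} (hz : z ∈ U) (m : ℕ) :
    ContDiffAt ℝ m (fun y => Real.log (w y).det.re) z := by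
  have h1 : ContDiffAt ℝ m (fun y => (w y).det.re) z :=
    Complex.reCLM.contDiff.contDiffAt.comp z (mc_w hw hz m).det
  exact h1.log (det_re_pos (hw.pos z hz)).ne'

theorem contDiffAt_tauL (hw : KU U w) (hu : ∀ z ∈ U, ContDiffAt ℝ ∞ u z)
    (hpos : ∀ z ∈ U, (Gm w u z).PosDef) {z : Cm n} (hz : z ∈ U) (m : ℕ) :
    ContDiffAt ℝ m (tau (Gm w u) w) z :=
  Complex.reCLM.contDiff.contDiffAt.comp z
    ((((mc_G hw hu hz m).inv (posDef_det_ne_zero (hpos z hz))).mul (mc_w hw hz m)).trace)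

/-- the differential inequality for a solution at a point where the data are bounded -/
theorem sol_ineqL [NeZero n] (hw : KU U w) (hF : ∀ z ∈ U, ContDiffAt ℝ ∞ F z)
    (hu : ∀ z ∈ U, ContDiffAt ℝ ∞ u z) (hpos : ∀ z ∈ U, (Gm w u z).PosDef) {s M : ℝ} (hM : 0 ≤ M)
    (hs0 : 0 ≤ s) (hs1 : s ≤ 1)
    (heq : ∀ z ∈ U, Real.log (Gm w u z).det.re - Real.log (w z).det.re = u z + s * F z)
    {z : Cm n} (hz : z ∈ U) (hb : BdL w F M z) :
    -1 - (n ^ 4 * M ^ 3 * (1 + M)) * tau (Gm w u) w z ≤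
      ((Gm w u z)⁻¹ * cHess (fun y => Real.log (tau (Gm w u) w y)) z).trace.re := by
  have hUn := hw.isOpen.mem_nhds hz
  have hu3 : ∀ᶠ y in 𝓝 z, ContDiffAt ℝ 3 u y := by
    filter_upwards [hUn] with y hy
    exact (hu y hy).of_le (nat_le_infty 3)
  have hχ1 : ∀ᶠ y in 𝓝 z, MC 1 w y := by
    filter_upwards [hUn] with y hy
    exact mc_w hw hy 1
  have hK : ∀ᶠ y in 𝓝 z, ∀ i j k,
      dz k (fun y => Gm w u y i j) y = dz i (fun y => Gm w u y k j) y := by
    filter_upwards [hUn, hu3, hχ1] with y h1 h2 h3 i j k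
    have one : (1 : WithTop ℕ∞) ≠ 0 := by norm_num
    have hd : ∀ a b, DifferentiableAt ℝ (fun y => cHess u y a b) y :=
      fun a b => (C2.contDiffAt_cHess (m := 1) h2 (by norm_num) a b).differentiableAt one
    have e1 : ∀ a b c, dz c (fun y => Gm w u y a b) y =
        dz c (fun y => w y a b) y + dz c (fun y => cHess u y a b) y :=
      fun a b c => dz_add c ((h3 a b).differentiableAt one) (hd a b)
    rw [e1, e1, hw.closed y h1 i j k]
    congr 1
    have h4 : ContDiffAt ℝ 2 (dzb j fun z => ((u z : ℝ) : ℂ)) y :=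
      contDiffAt_dzb j (contDiffAt_ofReal h2) (by norm_num)
    exact dz_dz_comm k i h4
  have hric : cHess (fun y => Real.log (Gm w u y).det.re) z = Gm w u z + ThL w F s z := by
    have ev : (fun y => Real.log (Gm w u y).det.re) =ᶠ[𝓝 z]
        fun y => Real.log (w y).det.re + (u y + s * F y) := by
      filter_upwards [hUn] with y hy
      have := heq y hy
      linarith
    have d1 : ContDiffAt ℝ 2 (fun y => Real.log (w y).det.re) z := mc_log_detL hw hz 2
    have d2 : ContDiffAt ℝ 2 u z := (hu z hz).of_le (nat_le_infty 2)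
    have d3 : ContDiffAt ℝ 2 F z := (hF z hz).of_le (nat_le_infty 2)
    rw [C2.cHess_congr ev, C2.cHess_add d1 (d2.add (contDiffAt_const.mul d3)),
      C2.cHess_add d2 (contDiffAt_const.mul d3), C2.cHess_const_mul s d3, Gm, ThL]
    abel
  exact chernLu_ineq (mc_G hw hu hz 2) (mc_w hw hz 2)
    (by filter_upwards [hUn] with y hy; exact hpos y hy)
    (by filter_upwards [hUn] with y hy; exact hw.pos y hy) hK hM hric hb.rm (hb.th s hs0 hs1)
    hb.met hb.inv

/-- uniform bounds on a compact set -/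
theorem exists_bdL (hw : KU U w) {Q : Set (Cm n)} (hQ : IsCompact Q) (hQU : Q ⊆ U) :
    ∃ M : ℝ, 0 ≤ M ∧ ∀ (F : Cm n → ℝ) (B : ℝ), 0 ≤ B → ∀ z ∈ Q, (∀ i j, ‖cHess F z i j‖ ≤ B) →
      BdL w F (M + B) z := by
  have c1 : ∀ k l i j, ContinuousOn (fun z => ‖RM k l w z i j‖) Q := by
    intro k l i j z hz
    have hm : MC 2 w z := mc_w hw (hQU hz) 2
    have a1 : MC 1 (DMb l w) z := hm.DMb (by norm_num)
    have a0 : MC 0 (DMb l w) z := a1.mono (by norm_num)
    have a2 : MC 0 (DM k (DMb l w)) z := a1.DM (by norm_num)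
    have a3 : MC 1 (DM k w) z := hm.DM (by norm_num)
    have a4 : MC 0 (DM k w) z := a3.mono (by norm_num)
    have a5 : MC 0 (fun y => (w y)⁻¹) z :=
      (hm.mono (by norm_num)).inv (posDef_det_ne_zero (hw.pos z (hQU hz)))
    have a6 : MC 0 (fun z => -DM k (DMb l w) z + DM k w z * (w z)⁻¹ * DMb l w z) z :=
      a2.neg.add ((a4.mul a5).mul a0)
    exact (a6 i j).continuousAt.norm.continuousWithinAt
  have c2 : ∀ i j, ContinuousOn (fun z => ‖cHess (fun y => Real.log (w y).det.re) z i j‖) Q :=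
    fun i j z hz => (C2.contDiffAt_cHess (m := 0) (mc_log_detL hw (hQU hz) 2) (by norm_num) i
      j).continuousAt.norm.continuousWithinAt
  have c3 : ∀ i j, ContinuousOn (fun z => ‖w z i j‖) Q := fun i j z hz =>
    ((mc_w hw (hQU hz) 0) i j).continuousAt.norm.continuousWithinAt
  have c5 : ContinuousOn (fun z => ‖((w z)⁻¹).trace‖) Q := fun z hz =>
    (((mc_w hw (hQU hz) 0).inv
      (posDef_det_ne_zero (hw.pos z (hQU hz)))).trace).continuousAt.norm.continuousWithinAt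
  set B : Cm n → ℝ := fun z => (∑ k, ∑ l, ∑ i, ∑ j, ‖RM k l w z i j‖) +
    (∑ i, ∑ j, ‖cHess (fun y => Real.log (w y).det.re) z i j‖) + (∑ i, ∑ j, ‖w z i j‖) +
    ‖((w z)⁻¹).trace‖ with hB
  have hBc : ContinuousOn B Q := by
    refine ((ContinuousOn.add ?_ ?_).add ?_).add c5
    · exact continuousOn_finsetSum _ fun k _ => continuousOn_finsetSum _ fun l _ =>
        continuousOn_finsetSum _ fun i _ => continuousOn_finsetSum _ fun j _ => c1 k l i j
    · exact continuousOn_finsetSum _ fun i _ => continuousOn_finsetSum _ fun j _ => c2 i j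
    · exact continuousOn_finsetSum _ fun i _ => continuousOn_finsetSum _ fun j _ => c3 i j
  obtain ⟨M, hM⟩ := hQ.exists_bound_of_continuousOn hBc
  have s4 : ∀ f : Fin n → Fin n → Fin n → Fin n → ℝ, (∀ k l i j, 0 ≤ f k l i j) →
      ∀ k l i j, f k l i j ≤ ∑ k, ∑ l, ∑ i, ∑ j, f k l i j := by
    intro f hf k l i j
    calc f k l i j ≤ ∑ j, f k l i j :=
          Finset.single_le_sum (f := fun j => f k l i j) (fun j _ => hf k l i j) (Finset.mem_univ j)
      _ ≤ ∑ i, ∑ j, f k l i j :=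
          Finset.single_le_sum (f := fun i => ∑ j, f k l i j)
            (fun i _ => Finset.sum_nonneg fun j _ => hf k l i j) (Finset.mem_univ i)
      _ ≤ ∑ l, ∑ i, ∑ j, f k l i j :=
          Finset.single_le_sum (f := fun l => ∑ i, ∑ j, f k l i j)
            (fun l _ => Finset.sum_nonneg fun i _ => Finset.sum_nonneg fun j _ => hf k l i j)
            (Finset.mem_univ l)
      _ ≤ _ := Finset.single_le_sum (f := fun k => ∑ l, ∑ i, ∑ j, f k l i j)
            (fun k _ => Finset.sum_nonneg fun l _ => Finset.sum_nonneg fun i _ =>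
              Finset.sum_nonneg fun j _ => hf k l i j) (Finset.mem_univ k)
  have s2 : ∀ f : Fin n → Fin n → ℝ, (∀ i j, 0 ≤ f i j) → ∀ i j, f i j ≤ ∑ i, ∑ j, f i j := by
    intro f hf i j
    calc f i j ≤ ∑ j, f i j :=
          Finset.single_le_sum (f := fun j => f i j) (fun j _ => hf i j) (Finset.mem_univ j)
      _ ≤ _ := Finset.single_le_sum (f := fun i => ∑ j, f i j)
            (fun i _ => Finset.sum_nonneg fun j _ => hf i j) (Finset.mem_univ i)
  have p2 : ∀ f : Fin n → Fin n → ℂ, 0 ≤ ∑ i, ∑ j, ‖f i j‖ := fun f =>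
    Finset.sum_nonneg fun i _ => Finset.sum_nonneg fun j _ => norm_nonneg _
  have p4 : ∀ f : Fin n → Fin n → Fin n → Fin n → ℂ, 0 ≤ ∑ k, ∑ l, ∑ i, ∑ j, ‖f k l i j‖ :=
    fun f => Finset.sum_nonneg fun k _ => Finset.sum_nonneg fun l _ =>
      Finset.sum_nonneg fun i _ => Finset.sum_nonneg fun j _ => norm_nonneg _
  refine ⟨|M|, abs_nonneg _, fun F B' hB' z hz hFz => ?_⟩
  have q1 := p4 fun k l i j => RM k l w z i j
  have q2 := p2 fun i j => cHess (fun y => Real.log (w y).det.re) z i j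
  have q3 := p2 fun i j => w z i j
  have q5 := norm_nonneg ((w z)⁻¹).trace
  have hBx : (∑ k, ∑ l, ∑ i, ∑ j, ‖RM k l w z i j‖) +
    (∑ i, ∑ j, ‖cHess (fun y => Real.log (w y).det.re) z i j‖) +
    (∑ i, ∑ j, ‖w z i j‖) + ‖((w z)⁻¹).trace‖ ≤ |M| :=
    (le_abs_self _).trans ((hM z hz).trans (le_abs_self _))
  refine ⟨fun k l i j => ?_, fun s hs0 hs1 i j => ?_, fun i j => ?_, ?_⟩
  · have := s4 (fun k l i j => ‖RM k l w z i j‖) (fun _ _ _ _ => norm_nonneg _) k l i j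
    linarith
  · have b1 := s2 (fun i j => ‖cHess (fun y => Real.log (w y).det.re) z i j‖)
      (fun _ _ => norm_nonneg _) i j
    have b2 := s2 (fun i j => ‖w z i j‖) (fun _ _ => norm_nonneg _) i j
    have b4 : ‖ThL w F s z i j‖ ≤ ‖cHess (fun y => Real.log (w y).det.re) z i j‖ +
        ‖w z i j‖ + ‖cHess F z i j‖ := by
      rw [ThL, Matrix.add_apply, Matrix.sub_apply, Matrix.smul_apply, smul_eq_mul]
      refine (norm_add_le _ _).trans (add_le_add (norm_sub_le _ _) ?_)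
      rw [norm_mul, Complex.norm_real, Real.norm_of_nonneg hs0]
      exact mul_le_of_le_one_left (norm_nonneg _) hs1
    have := hFz i j
    linarith
  · have := s2 (fun i j => ‖w z i j‖) (fun _ _ => norm_nonneg _) i j
    linarith
  · have := Complex.re_le_norm ((w z)⁻¹).trace
    linarith

end loc

section mat
variable {n : ℕ}

theorem trace_cong (G H J : Matrix (Fin n) (Fin n) ℂ) (hJ : J.det ≠ 0) :
    ((J.transpose * G * J.map (starRingEnd ℂ))⁻¹ *
      (J.transpose * H * J.map (starRingEnd ℂ))).trace = (G⁻¹ * H).trace := by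
  have hJb : (J.map (starRingEnd ℂ)).det ≠ 0 := by
    have h1 : (J.map (starRingEnd ℂ)).det = (starRingEnd ℂ) J.det :=
      (RingHom.map_det (starRingEnd ℂ) J).symm
    rw [h1]
    exact (map_ne_zero _).2 hJ
  have hJt : J.transpose.det ≠ 0 := by rwa [Matrix.det_transpose]
  rw [Matrix.mul_inv_rev, Matrix.mul_inv_rev]
  have e1 : (J.map (starRingEnd ℂ))⁻¹ * (G⁻¹ * J.transpose⁻¹) *
      (J.transpose * H * J.map (starRingEnd ℂ)) =
      (J.map (starRingEnd ℂ))⁻¹ * (G⁻¹ * H * J.map (starRingEnd ℂ)) := by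
    have e2 : J.transpose⁻¹ * (J.transpose * H) = H := by
      rw [← Matrix.mul_assoc, Matrix.nonsing_inv_mul _ (isUnit_iff_ne_zero.2 hJt), Matrix.one_mul]
    calc _ = (J.map (starRingEnd ℂ))⁻¹ * (G⁻¹ * (J.transpose⁻¹ * (J.transpose * H)) *
          J.map (starRingEnd ℂ)) := by simp only [Matrix.mul_assoc]
      _ = _ := by rw [e2]
  rw [e1, Matrix.trace_mul_comm, Matrix.mul_assoc, Matrix.mul_nonsing_inv _
    (isUnit_iff_ne_zero.2 hJb), Matrix.mul_one]

end mat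

section fam
open Vale.Agent.P284.H409.K Vale.Agent.P284.H913.K
variable {n : ℕ} {Γ : Type} [Group Γ] {C : Coc n Γ} {K : KM C}
  {F φ : Γ → C.I → Cm n → ℝ} {s : ℝ}

theorem V_sub' (C : Coc n Γ) (a : C.I) : C.V a ⊆ C.Ω a :=
  ball_subset_ball (by linarith [C.r_pos a])

theorem jac_det_ne (K : KM C) {a b : C.I} {z : Cm n} (hz : z ∈ C.O a b) :
    (jac C a b z).det ≠ 0 := by
  intro h
  have hz' : z ∈ C.Ω a := C.O_sub a b hz
  have h1 := det_re_pos ((K.ku a).pos z hz')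
  rw [K.change a b z hz, det_pull, h, norm_zero] at h1
  simp at h1

theorem Gm_T (hφ : SmF C φ) (γ : Γ) {a b : C.I} {z : Cm n} (hz : z ∈ C.O a b) :
    Gm (K.w a) (φ γ a) z = (jac C a b z).transpose *
      Gm (K.w b) (φ (γ * C.κ a b z) b) (C.T a b z) * (jac C a b z).map (starRingEnd ℂ) := by
  rw [Gm, Gm, cHess_T hφ.smooth hφ.compat γ hz]
  conv_lhs => rw [K.change a b z hz]
  rw [Matrix.mul_add, Matrix.add_mul]

/-- `tr_{g'} w` on the pieces -/
def tauF (K : KM C) (φ : Γ → C.I → Cm n → ℝ) (γ : Γ) (a : C.I) (z : Cm n) : ℝ :=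
  tau (Gm (K.w a) (φ γ a)) (K.w a) z

theorem tauF_T (hφ : SmF C φ) (γ : Γ) {a b : C.I} {z : Cm n} (hz : z ∈ C.O a b) :
    tauF K φ γ a z = tauF K φ (γ * C.κ a b z) b (C.T a b z) := by
  unfold tauF tau
  rw [Gm_T hφ γ hz]
  conv_lhs => rw [K.change a b z hz]
  rw [trace_cong _ _ _ (jac_det_ne K hz)]

/-- bound for `tr_{g'} w` -/
theorem tauF_le [NeZero n] (hF : SmF C F) {A M M0 : ℝ} (hM : 0 ≤ M)
    (hA : n ^ 4 * M ^ 3 * (1 + M) ≤ A)
    (hb : ∀ γ a, ∀ z ∈ C.V a, BdL (K.w a) (F γ a) M z) (hs0 : 0 ≤ s) (hs1 : s ≤ 1)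
    (h : MAF C K (fun γ a z => s * F γ a z) φ) (hM0 : ∀ γ a, ∀ z ∈ C.Ω a, |φ γ a z| ≤ M0)
    (hc : ∃ c : ℝ, 0 < c ∧ ∀ γ a, ∀ z ∈ C.Ω a,
      (K.w a z + cHess (φ γ a) z - (c : ℂ) • K.w a z).PosSemidef) :
    ∀ γ a, ∀ z ∈ C.Ω a, tauF K φ γ a z ≤
      2 * (1 + (A + 1) * n) * Real.exp ((A + 1) * (2 * M0) + 1) := by
  have hpos : ∀ γ a, ∀ z ∈ C.Ω a, (Gm (K.w a) (φ γ a) z).PosDef := h.pos
  have hA0 : 0 ≤ A := le_trans (by positivity) hA
  have tpos : ∀ γ a, ∀ z ∈ C.Ω a, 0 < tauF K φ γ a z := fun γ a z hz =>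
    trace_re_pos (hpos γ a z hz) ((K.ku a).pos z hz)
  -- the function to be maximised
  set v : Γ → C.I → Cm n → ℝ := fun γ a z => Real.log (tauF K φ γ a z) - (A + 1) * φ γ a z with hv
  have hsm : ∀ γ a, ∀ z ∈ C.Ω a, ∀ m : ℕ, ContDiffAt ℝ m (tauF K φ γ a) z := fun γ a z hz m =>
    contDiffAt_tauL (K.ku a) (h.smooth γ a) (hpos γ a) hz m
  have hlog : ∀ γ a, ∀ z ∈ C.Ω a, ∀ m : ℕ,
      ContDiffAt ℝ m (fun y => Real.log (tauF K φ γ a y)) z := fun γ a z hz m =>
    (hsm γ a z hz m).log (tpos γ a z hz).ne'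
  have hvS : SmF C v := by
    refine ⟨fun γ a z hz => ?_, fun γ a b z hz => ?_⟩
    · rw [contDiffAt_infty]
      intro m
      exact (hlog γ a z hz m).sub (contDiffAt_const.mul ((h.smooth γ a z hz).of_le (nat_le_infty m)))
    · simp only [hv]
      rw [tauF_T h.toSmF γ hz, h.compat γ a b z hz]
  obtain ⟨c, hc0, hc⟩ := hc
  have tle : ∀ γ a, ∀ z ∈ C.Ω a, tauF K φ γ a z ≤ n / c := by
    intro γ a z hz
    have h1 := trace_mul_nonneg (hpos γ a z hz).inv.posSemidef (hc γ a z hz)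
    rw [Matrix.mul_sub, Matrix.trace_sub, Matrix.mul_smul, Matrix.trace_smul,
      show K.w a z + cHess (φ γ a) z = Gm (K.w a) (φ γ a) z from rfl,
      Matrix.nonsing_inv_mul _ (isUnit_iff_ne_zero.2 (posDef_det_ne_zero (hpos γ a z hz))),
      Matrix.trace_one, Complex.le_def] at h1
    have h2 := h1.1
    rw [Complex.sub_re, smul_eq_mul, Complex.re_ofReal_mul, Complex.zero_re] at h2
    simp only [Fintype.card_fin, Complex.natCast_re] at h2
    have h3 : tauF K φ γ a z = ((Gm (K.w a) (φ γ a) z)⁻¹ * K.w a z).trace.re := rfl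
    rw [le_div_iff₀ hc0, h3]
    linarith
  intro γ₀ a₀ z₀ hz₀
  have hn0 : (0 : ℝ) < n := by exact_mod_cast Nat.pos_of_ne_zero (NeZero.ne n)
  have hM00 : 0 ≤ M0 := (abs_nonneg _).trans (hM0 γ₀ a₀ z₀ hz₀)
  obtain ⟨γ, a, z, hzV, h1', h2⟩ := Vale.Agent.P284.H10.CY.maxE C K v
    (fun γ a z hz => (hvS.smooth γ a z hz).of_le (nat_le_infty 2)) hvS.compat
    (Real.log (n / c) + (A + 1) * M0) (fun γ a z hzW => by
      have hz : z ∈ C.Ω a := ball_subset_ball (by linarith [C.r_pos a]) hzW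
      simp only [hv]
      have e1 := Real.log_le_log (tpos γ a z hz) (tle γ a z hz)
      have e2 := abs_le.1 (hM0 γ a z hz)
      nlinarith) (1 / 2) (by norm_num)
  have h1 := h1' γ₀ a₀ z₀ hz₀
  have hz : z ∈ C.Ω a := V_sub' C a hzV
  have hGp := hpos γ a z hz
  have hHp := (K.ku a).pos z hz
  set P := (Gm (K.w a) (φ γ a) z)⁻¹ with hP
  have hPp : P.PosSemidef := hGp.inv.posSemidef
  set t := tauF K φ γ a z with ht
  have htpos : 0 < t := tpos γ a z hz
  have hφ2 : ContDiffAt ℝ 2 (φ γ a) z := (h.smooth γ a z hz).of_le (nat_le_infty 2)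
  have h3 : cHess (v γ a) z = cHess (fun y => Real.log (tauF K φ γ a y)) z -
      ((A + 1 : ℝ) : ℂ) • cHess (φ γ a) z := by
    have e : v γ a = fun y => Real.log (tauF K φ γ a y) - (A + 1) * φ γ a y := rfl
    rw [e, C2.cHess_sub (hlog γ a z hz 2) (contDiffAt_const.mul hφ2), C2.cHess_const_mul _ hφ2]
  have h4 : (P * cHess (φ γ a) z).trace.re = n - t := by
    have e1 : cHess (φ γ a) z = Gm (K.w a) (φ γ a) z - K.w a z := by rw [Gm]; abel
    rw [e1, Matrix.mul_sub, Matrix.nonsing_inv_mul _ (isUnit_iff_ne_zero.2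
      (posDef_det_ne_zero hGp)), Matrix.trace_sub, Matrix.trace_one, Complex.sub_re]
    simp [ht, tauF, tau, hP]
  have h6 : (P * cHess (v γ a) z).trace.re ≤ t / 2 := by
    have e1 := trace_mul_nonneg hPp h2
    rw [Matrix.mul_sub, Matrix.trace_sub, Matrix.mul_smul, Matrix.trace_smul,
      Complex.le_def] at e1
    have e2 := e1.1
    rw [Complex.sub_re, smul_eq_mul, Complex.re_ofReal_mul, Complex.zero_re] at e2
    have e3 : t = (P * K.w a z).trace.re := rfl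
    linarith
  have h7 := sol_ineqL (K.ku a) (hF.smooth γ a) (h.smooth γ a) (hpos γ a) hM hs0 hs1
    (fun y hy => h.eq γ a y hy) hz (hb γ a z hzV)
  have h8 : (P * cHess (fun y => Real.log (tauF K φ γ a y)) z).trace.re =
      (P * cHess (v γ a) z).trace.re + (A + 1) * (n - t) := by
    rw [h3, Matrix.mul_sub, Matrix.trace_sub, Complex.sub_re, Matrix.mul_smul,
      Matrix.trace_smul, smul_eq_mul, Complex.re_ofReal_mul, h4]
    ring
  have h9 : -1 - n ^ 4 * M ^ 3 * (1 + M) * t ≤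
      (P * cHess (fun y => Real.log (tauF K φ γ a y)) z).trace.re := h7
  rw [h8] at h9
  have h10 : n ^ 4 * M ^ 3 * (1 + M) * t ≤ A * t := mul_le_mul_of_nonneg_right hA htpos.le
  have h12 : t ≤ 2 * (1 + (A + 1) * n) := by nlinarith
  have hpos1 : 0 < 2 * (1 + (A + 1) * (n : ℝ)) := by positivity
  have h13 : Real.log t ≤ Real.log (2 * (1 + (A + 1) * n)) := Real.log_le_log htpos h12
  have h14 := abs_le.1 (hM0 γ₀ a₀ z₀ hz₀)
  have h15 := abs_le.1 (hM0 γ a z hz)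
  have h16 : Real.log (tauF K φ γ₀ a₀ z₀) ≤
      Real.log (2 * (1 + (A + 1) * n)) + ((A + 1) * (2 * M0) + 1) := by
    simp only [hv] at h1
    nlinarith
  have h17 := Real.exp_le_exp.2 h16
  rwa [Real.exp_log (tpos γ₀ a₀ z₀ hz₀), Real.exp_add, Real.exp_log hpos1] at h17

theorem psd_mono {G L : Matrix (Fin n) (Fin n) ℂ} {a b : ℝ} (hG : G.PosDef) (hab : a ≤ b)
    (h : ((a : ℂ) • G - L).PosSemidef) : ((b : ℂ) • G - L).PosSemidef := by
  have h2 : (((b - a : ℝ) : ℂ) • G).PosSemidef :=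
    hG.posSemidef.smul (by exact_mod_cast sub_nonneg.2 hab)
  have h3 := h2.add h
  have e1 : ((b - a : ℝ) : ℂ) • G + ((a : ℂ) • G - L) = (b : ℂ) • G - L := by
    push_cast
    rw [sub_smul]
    abel
  rwa [e1] at h3

/-- The `C²` estimate on the covering. -/
theorem c2_fam (C : Coc n Γ) (K : KM C) (F : Γ → C.I → Cm n → ℝ) (hF : SmF C F) (B M0 : ℝ)
    (hFB : ∀ γ a, ∀ z ∈ C.Ω a, |F γ a z| ≤ B)
    (hFH : ∀ γ a, ∀ z ∈ C.V a, ∀ i j, ‖cHess (F γ a) z i j‖ ≤ B) :
    ∃ D : ℝ, 0 < D ∧ ∀ s : ℝ, 0 ≤ s → s ≤ 1 → ∀ φ : Γ → C.I → Cm n → ℝ,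
      MAF C K (fun γ a z => s * F γ a z) φ → (∀ γ a, ∀ z ∈ C.Ω a, |φ γ a z| ≤ M0) →
      (∃ c : ℝ, 0 < c ∧ ∀ γ a, ∀ z ∈ C.Ω a,
        (K.w a z + cHess (φ γ a) z - (c : ℂ) • K.w a z).PosSemidef) →
      ∀ γ a, ∀ z ∈ C.Ω a,
        ((D : ℂ) • (K.w a z + cHess (φ γ a) z) - K.w a z).PosSemidef ∧
        ((D : ℂ) • K.w a z - (K.w a z + cHess (φ γ a) z)).PosSemidef := by
  rcases Nat.eq_zero_or_pos n with hn | hn
  · subst hn
    refine ⟨1, one_pos, fun s _ _ φ _ _ _ γ a z _ => ⟨?_, ?_⟩⟩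
    · rw [Subsingleton.elim (((1 : ℝ) : ℂ) • (K.w a z + cHess (φ γ a) z) - K.w a z) 0]
      exact Matrix.PosSemidef.zero
    · rw [Subsingleton.elim (((1 : ℝ) : ℂ) • K.w a z - (K.w a z + cHess (φ γ a) z)) 0]
      exact Matrix.PosSemidef.zero
  have : NeZero n := ⟨hn.ne'⟩
  -- uniform bounds of the data
  have hbd : ∀ a : C.I, ∃ M : ℝ, 0 ≤ M ∧ ∀ (F : Cm n → ℝ) (B : ℝ), 0 ≤ B →
      ∀ z ∈ closedBall (C.c a) (3 * C.r a), (∀ i j, ‖cHess F z i j‖ ≤ B) →
      BdL (K.w a) F (M + B) z := fun a =>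
    exists_bdL (K.ku a) (isCompact_closedBall _ _)
      (closedBall_subset_ball (by linarith [C.r_pos a]))
  choose Ma hMa0 hMa using hbd
  set M : ℝ := (∑ a, Ma a) + |B| with hM
  have hM0' : 0 ≤ M := add_nonneg (Finset.sum_nonneg fun a _ => hMa0 a) (abs_nonneg _)
  have hb : ∀ γ a, ∀ z ∈ C.V a, BdL (K.w a) (F γ a) M z := by
    intro γ a z hz
    have h1 := hMa a (F γ a) |B| (abs_nonneg _) z (ball_subset_closedBall hz)
      fun i j => (hFH γ a z hz i j).trans (le_abs_self _)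
    have h2 : Ma a + |B| ≤ M := by
      have := Finset.single_le_sum (f := Ma) (fun a _ => hMa0 a) (Finset.mem_univ a)
      rw [hM]; linarith
    exact ⟨fun k l i j => (h1.rm k l i j).trans h2, fun s h0 h1' i j =>
      (h1.th s h0 h1' i j).trans h2, fun i j => (h1.met i j).trans h2, h1.inv.trans h2⟩
  set A : ℝ := n ^ 4 * M ^ 3 * (1 + M) with hA
  have hA0 : 0 ≤ A := by positivity
  set C1 : ℝ := 2 * (1 + (A + 1) * n) * Real.exp ((A + 1) * (2 * M0) + 1) with hC1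
  have hC1pos : 0 < C1 := by positivity
  set D : ℝ := Real.exp (M0 + |B|) with hD
  set C2 : ℝ := n * (C1 ^ (n - 1) * D) with hC2
  have hC2nn : 0 ≤ C2 := by positivity
  refine ⟨C1 + C2, by linarith, fun s hs0 hs1 φ h hφM hc γ a z hz => ?_⟩
  have hGp : (K.w a z + cHess (φ γ a) z).PosDef := h.pos γ a z hz
  have hHp := (K.ku a).pos z hz
  have ht : tauF K φ γ a z ≤ C1 := tauF_le hF hM0' le_rfl hb hs0 hs1 h hφM hc γ a z hz
  have htx : tauF K φ γ a z = ((K.w a z + cHess (φ γ a) z)⁻¹ * K.w a z).trace.re := rfl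
  have hS1 : (((tauF K φ γ a z : ℝ) : ℂ) • (K.w a z + cHess (φ γ a) z) - K.w a z).PosSemidef := by
    rw [htx, trace_re_eq hGp hHp]
    exact trace_smul_sub_posSemidef hGp hHp.posSemidef
  have hS1' := psd_mono hGp ht hS1
  refine ⟨psd_mono hGp (by linarith) hS1', ?_⟩
  have hdet : (K.w a z + cHess (φ γ a) z).det.re ≤ D * (K.w a z).det.re := by
    have h1 := h.eq γ a z hz
    have h2 := abs_le.1 (hφM γ a z hz)
    have h4 : s * F γ a z ≤ |B| := by
      have h3 := (hFB γ a z hz).trans (le_abs_self B)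
      have : |s * F γ a z| ≤ |B| := by
        rw [abs_mul, abs_of_nonneg hs0]
        calc s * |F γ a z| ≤ 1 * |F γ a z| := mul_le_mul_of_nonneg_right hs1 (abs_nonneg _)
          _ ≤ |B| := by rw [one_mul]; exact h3
      exact (abs_le.1 this).2
    have h5 : Real.log (K.w a z + cHess (φ γ a) z).det.re ≤
        M0 + |B| + Real.log (K.w a z).det.re := by
      linarith
    have h6 := Real.exp_le_exp.2 h5
    rwa [Real.exp_log (det_re_pos hGp), Real.exp_add, Real.exp_log (det_re_pos hHp)] at h6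
  have h7 := trace_inv_mul_le hGp hHp hC1pos hS1' hdet
  rw [Fintype.card_fin] at h7
  have hS2 : (((((K.w a z)⁻¹ * (K.w a z + cHess (φ γ a) z)).trace.re : ℝ) : ℂ) • K.w a z -
      (K.w a z + cHess (φ γ a) z)).PosSemidef := by
    rw [trace_re_eq hHp hGp]
    exact trace_smul_sub_posSemidef hHp hGp.posSemidef
  exact psd_mono hHp (by linarith) hS2

end fam

open Vale.Agent.P284.H409.K Vale.Agent.P284.H730.CY Vale.Agent.P272.K.N in
/-- entries of the Levi matrix -/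
theorem norm_lev_le {n : ℕ} (B : Bil n) (j k : Fin n) : ‖lev B j k‖ ≤ ‖B‖ := by
  have hs : ∀ (j : Fin n) (c : ℂ), ‖c‖ = 1 → ‖(Pi.single j c : Cm n)‖ = 1 := by
    intro j c hc
    rw [Pi.norm_single, hc]
  have hb : ∀ (j k : Fin n) (c d : ℂ), ‖c‖ = 1 → ‖d‖ = 1 →
      |B (Pi.single j c) (Pi.single k d)| ≤ ‖B‖ := by
    intro j k c d hc hd
    have h1 := B.le_opNorm₂ (Pi.single j c) (Pi.single k d)
    rwa [hs j c hc, hs k d hd, mul_one, mul_one, Real.norm_eq_abs] at h1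
  have h1 := hb j k 1 1 norm_one norm_one
  have h2 := hb j k Complex.I Complex.I Complex.norm_I Complex.norm_I
  have h3 := hb j k 1 Complex.I norm_one Complex.norm_I
  have h4 := hb j k Complex.I 1 Complex.norm_I norm_one
  rw [lev_apply, norm_div]
  have h5 : ‖(4 : ℂ)‖ = 4 := by norm_num
  rw [h5, div_le_iff₀ (by norm_num)]
  refine (norm_add_le _ _).trans ?_
  rw [norm_mul, Complex.norm_I, one_mul, Complex.norm_real, Complex.norm_real, Real.norm_eq_abs,
    Real.norm_eq_abs]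
  have h6 := abs_add_le (B (Pi.single j 1) (Pi.single k 1))
    (B (Pi.single j Complex.I) (Pi.single k Complex.I))
  have h7 := abs_sub (B (Pi.single j 1) (Pi.single k Complex.I))
    (B (Pi.single j Complex.I) (Pi.single k 1))
  linarith

open Vale.Agent.P284.H409.K Vale.Agent.P284.H730.CY Vale.Agent.P272.K.N in
/-- **Row M2**. -/
theorem m2Concl : M2Concl := by
  intro n Γ _ C K F hF M₀
  -- bounds of `F`
  have hb0 : ∀ a : C.I, ∃ B : ℝ, ∀ γ, ∀ z ∈ closedBall (C.c a) (3 * C.r a), |F γ a z| ≤ B := by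
    intro a
    obtain ⟨B, hB⟩ := hF.bd a (3 * C.r a) (by linarith [C.r_pos a]) 0
    refine ⟨B, fun γ z hz => ?_⟩
    have := hB γ z hz
    rwa [norm_iteratedFDeriv_zero, Real.norm_eq_abs] at this
  have hb2 : ∀ a : C.I, ∃ B : ℝ, ∀ γ, ∀ z ∈ closedBall (C.c a) (3 * C.r a), ∀ i j,
      ‖cHess (F γ a) z i j‖ ≤ B := by
    intro a
    obtain ⟨B, hB⟩ := hF.bd a (3 * C.r a) (by linarith [C.r_pos a]) 2
    refine ⟨B, fun γ z hz i j => ?_⟩
    have hz' : z ∈ C.Ω a := closedBall_subset_ball (by linarith [C.r_pos a]) hz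
    have h2 : ContDiffAt ℝ 2 (F γ a) z := (hF.smooth γ a z hz').of_le (nat_le_infty 2)
    rw [cHess_eq_lev (diffble2 h2)]
    refine (norm_lev_le _ i j).trans ?_
    have h3 := hB γ z hz
    have h4 : ‖fderiv ℝ (fderiv ℝ (F γ a)) z‖ = ‖iteratedFDeriv ℝ 2 (F γ a) z‖ := by
      rw [← norm_iteratedFDeriv_fderiv (n := 1), ← norm_iteratedFDeriv_fderiv (n := 0),
        norm_iteratedFDeriv_zero]
    rw [h4]
    exact h3
  choose B0 hB0 using hb0
  choose B2 hB2 using hb2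
  set B : ℝ := ∑ a, (|B0 a| + |B2 a|) with hBd
  have hle : ∀ a, |B0 a| + |B2 a| ≤ B := fun a =>
    Finset.single_le_sum (f := fun a => |B0 a| + |B2 a|) (fun a _ => by positivity)
      (Finset.mem_univ a)
  obtain ⟨D, hD0, hD⟩ := c2_fam C K F hF.toSmF B M₀ (fun γ a z hz => by
    obtain ⟨b, h1, h2⟩ := C.cover a z hz
    rw [hF.compat γ a b z h1]
    have h3 := hB0 b (γ * C.κ a b z) (C.T a b z)
      (ball_subset_closedBall (ball_subset_ball (by linarith [C.r_pos b]) h2))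
    have h4 := hle b
    have h5 := le_abs_self (B0 b)
    have h6 := abs_nonneg (B2 b)
    linarith) (fun γ a z hz i j => by
    have h3 := hB2 a γ z (ball_subset_closedBall hz) i j
    have h4 := hle a
    have h5 := le_abs_self (B2 a)
    have h6 := abs_nonneg (B0 a)
    linarith)
  refine ⟨max D 1, le_max_right _ _, fun s hs φ h hBdφ hφM γ a z hz => ?_⟩
  obtain ⟨h1, h2⟩ := hD s hs.1 hs.2 φ h hφM hBdφ.low γ a z hz
  exact ⟨psd_mono ((K.ku a).pos z hz) (le_max_left _ _) h2,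
    psd_mono (h.pos γ a z hz) (le_max_left _ _) h1⟩

open Vale.Agent.P284.H730.CY in
/-- **Row M2** (literal). -/
theorem m2Stmt : M2Stmt := fun _ => m2Concl

end Vale.Agent.P284.H639.CY
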